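import Vale.Agent.P207.Kat.Spec
import Vale.Agent.P207.H469.KPr

/-!
# P207, block LOW: the statement on the frame bundle
-/

open scoped Manifold ContDiff ENNReal Topology
open Bundle MeasureTheory Set Filter Topology

noncomputable section

set_option maxSynthPendingDepth 3
set_option linter.unusedSectionVars false

namespace Vale.Agent.P207.Low

open Vale.Agent.P255 (RMetric)
open Vale.Agent.P207 Vale.Agent.P207.Q Vale.Agent.P207.H442 Vale.Agent.P207.Kat

variable {n : ℕ} {M : Type} [TopologicalSpace M] [ChartedSpace (EV n) M]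
  [IsManifold 𝓘(ℝ, EV n) ∞ M] [NeZero n] [CompactSpace M] [T2Space M] [MeasurableSpace M]
  [BorelSpace M] {g : RMetric (EV n) M} [Nonempty (Fr g)]

/-- **(LOW)** positivity on one eigenspace of the Casimir operator, vector by vector: `k` is a
symmetric tensor in the eigenspace, whose component of type `(2,2)` is divergence free, with mean
trace zero -/
def LOWStmt (D : Dat g) (b c₀ : ℝ) : Prop :=
  ∀ (lam : ℝ) (k : Fin n → Fin n → SmFr g), GT2 k →
    (∀ i j, (frCalc g).cas (k i j) = (-lam) • k i j) →
    (∀ j, divf (frCalc g) (H469.k22 (frCalc g) b c₀ k) j = 0) →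
    D.I (∑ i, k i i) = 0 → k ≠ 0 →
    ∃ y : Fin n → SmFr g, GAdm y ∧ (∀ i, (frCalc g).cas (y i) = (-lam) • y i) ∧ 0 < D.Q k y

end Vale.Agent.P207.Low
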