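import Vale.Agent.P207.Low.FrB
import Vale.Agent.P207.H662.GeoQ
import Vale.Agent.P207.H662.LowF
import Vale.Agent.P207.H266.FlwK
import Vale.Agent.P207.H546.Const
import Vale.Agent.P207.H546.FinDimFr
import Vale.Agent.P207.H442.QFr
import Vale.Agent.P207.H992.S0F

/-!
# P207, block LOW: the statement on the frame bundle of a metric of quaternionic or Cayley type
-/

open scoped Manifold ContDiff ENNReal Topology RealInnerProductSpace
open Bundle MeasureTheory Set Filter Module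

set_option maxSynthPendingDepth 3
set_option linter.unusedSectionVars false

noncomputable section

namespace Vale.Agent.P207.Low

open Vale.Agent.P255 (RMetric)
open Vale.Agent.P207 Vale.Agent.P207.Q Vale.Agent.P207.Q.H545 Vale.Agent.P207.H442
open Vale.Agent.P207.H747 (ACT En ee act act_R)
open Vale.Agent.P207.H469 (RankOne NN k22)
open Vale.Agent.P207.H379 (rotStab t2_of_GT2 k00_scal gAdm_iff)
open Vale.Agent.P207.H662 Vale.Agent.P207.H391 Vale.Agent.P207.H266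

variable {m : ℕ} {M : Type} [TopologicalSpace M] [ChartedSpace (EV (m + 1)) M]
  [IsManifold 𝓘(ℝ, EV (m + 1)) ∞ M] {g : RMetric (EV (m + 1)) M}
variable [CompactSpace M] [T2Space M] [MeasurableSpace M] [BorelSpace M] [Nonempty (Fr g)]
  (D : Kat.Dat g)

include D in
/-- finite dimension of the joint eigenspaces -/
theorem fds_sc {c : ℝ} (hc : c ≠ 0) : FDs (sc (frCalc g) c) := by
  intro μ₁ μ₂ V hV
  have hcc : c * c ≠ 0 := mul_ne_zero hc hc
  refine H546.fd_smFr D.hP D.hφ D.hmp ((c * c)⁻¹ * μ₁ + μ₂) V fun f hf => ?_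
  obtain ⟨h1, h2⟩ := hV f hf
  rw [sc_lap] at h1
  have h3 : (frCalc g).lap f = ((c * c)⁻¹ * μ₁) • f := by
    rw [← smul_smul, ← h1, smul_smul, inv_mul_cancel₀ hcc, one_smul]
  have h4 : ∑ a, ∑ b, (frCalc g).V a b ((frCalc g).V a b f) = μ₂ • f := h2
  rw [add_smul, ← h3, ← h4]
  rfl

section Flow

variable {b d : ℝ} (hb : 0 < b) (h : Rk1 (sc (frCalc g) (2 / b)) d)

theorem two_div_ne (hb : 0 < b) : (2 / b : ℝ) ≠ 0 := by positivity

/-- the geodesic flow on the ladder algebra of the scaled calculus -/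
def flwG : Flw (h.lad (sc_IsInt (frCalc g) (2 / b) (dat_isInt D)) (dat_nonneg D)) :=
  flwK D (C := sc (frCalc g) (2 / b)) (c := 2 / b) (fun _ _ => rfl) (fun _ _ _ => rfl) h
    (two_div_ne hb) (sc_IsInt (frCalc g) (2 / b) (dat_isInt D)) (dat_nonneg D)

theorem U_mem_WF (mu : ℝ) : ∀ t, ∀ u ∈ WF D h mu, (flwG D hb h).U t u ∈ WF D h mu :=
  U_mem_WE h _ _ (H662.scStab (rotStab g) (2 / b)) (flwG D hb h)
    (fun t _ hf => flwK_scal D (C := sc (frCalc g) (2 / b)) (c := 2 / b) (fun _ _ => rfl)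
      (fun _ _ _ => rfl) h (two_div_ne hb)
      (sc_IsInt (frCalc g) (2 / b) (dat_isInt D)) (dat_nonneg D) t hf)
    (fun t f => flwK_Lam D (C := sc (frCalc g) (2 / b)) (c := 2 / b) (fun _ _ => rfl)
      (fun _ _ _ => rfl) h (two_div_ne hb)
      (sc_IsInt (frCalc g) (2 / b) (dat_isInt D)) (dat_nonneg D) t f)

/-- the geodesic flow on one eigenspace -/
def flwF (mu : ℝ) : Flw (ladF D h mu) :=
  flwSub (flwG D hb h) (WF D h mu) (stable_WE h _ _ _ mu) (U_mem_WF D hb h mu)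

theorem flwF_LamL (mu : ℝ) (t : ℝ) (f : WF D h mu) :
    (ladF D h mu).LamL ((flwF D hb h mu).U t f) = (flwF D hb h mu).U t ((ladF D h mu).LamL f) :=
  Subtype.ext (flwK_LamL D (C := sc (frCalc g) (2 / b)) (c := 2 / b) (fun _ _ => rfl)
    (fun _ _ _ => rfl) h (two_div_ne hb)
    (sc_IsInt (frCalc g) (2 / b) (dat_isInt D)) (dat_nonneg D) t (f : h.sys.B))

end Flow

section Low

variable [ConnectedSpace M]

/-- **LOW for a metric of quaternionic type** -/
theorem low_H (hL : LocSymmetric g) (hN : NegCurvature g) {b c₀ : ℝ} (hb : 0 < b)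
    (hbc : 2 / b * (2 / b) * c₀ = m + 3 * 3) {q : ℕ} (hq : 2 ≤ q) (hmq : m + 1 = 4 * q)
    (hbd : ∀ f : Fr g, (act hL hN f).Nrm b ∧ ∀ v : En (m + 1), ‖v‖ = 1 →
        finrank ℝ (End.eigenspace ((act hL hN f).K v) (b ^ 2)) = 3)
    (hR : RankOne (frCalc g) b c₀) (h : Rk1 (sc (frCalc g) (2 / b)) 3) : LOWStmt D b c₀ := by
  intro lam k hk hcas hdiv htr hne
  have hqR : (2 : ℝ) ≤ q := by exact_mod_cast hq
  have hmR : (m : ℝ) + 1 = 4 * q := by exact_mod_cast hmq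
  refine low_frame D hb (by norm_num) hbc h hR hk
    (fun hH => H546.trk_eq_zero D hN hk htr hH) rfl (fun hφ hw ht => ?_) hcas hdiv hne
  have hcas' : ∀ i j, (sc (frCalc g) (2 / b)).cas (k i j) =
      (-(2 / b * (2 / b) * lam)) • k i j := by
    intro i j
    rw [sc_cas, hcas, smul_smul]
    congr 1
    ring
  have hR' : RankOne (sc (frCalc g) (2 / b)) 2 (m + 3 * 3) := by
    have h1 := sc_RankOne hR
    rwa [hbc] at h1
  have hdiv' : ∀ j, Kat.divf (sc (frCalc g) (2 / b))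
      (k22 (sc (frCalc g) (2 / b)) 2 (m + 3 * 3) k) j = 0 := by
    intro j
    rw [← hbc, sc_k22 (frCalc g) hb, sc_divf, hdiv, smul_zero]
  have hQ := qp_frCalc hL hN hb hbd (by omega)
  have hkT := sc_t2_of_GT2 hk (2 / b)
  have t1 : Typ (ladF D h (2 / b * (2 / b) * lam)) 0 0 ⟨phiB h hkT, hφ⟩ :=
    (sub_typ (hN := stable_WE h (sc_IsInt (frCalc g) (2 / b) (dat_isInt D)) (dat_nonneg D)
      (H662.scStab (rotStab g) (2 / b)) _)).2 (typ_phi h _ _ hkT)
  have t2 : Typ (ladF D h (2 / b * (2 / b) * lam)) 2 0 ⟨twoB h hkT, hw⟩ :=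
    (sub_typ (hN := stable_WE h (sc_IsInt (frCalc g) (2 / b) (dat_isInt D)) (dat_nonneg D)
      (H662.scStab (rotStab g) (2 / b)) _)).2 (typ_two h _ _ hR' hkT hk.1)
  have he : (ladF D h (2 / b * (2 / b) * lam)).e = 4 * q - 4 := by
    have h1 : (ladF D h (2 / b * (2 / b) * lam)).e = (m : ℝ) - 3 := rfl
    rw [h1]
    linarith
  refine certAt_H (flwF D hb h _) (m := q) rfl he hqR (ladE_Lam h _ _ _ _)
    (ladE_def h _ _ _ (dat_def D) _) (fd_TTs h _ _ _ (fds_sc D (two_div_ne hb)) _) ?_ ?_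
  · intro ht0
    have h1 := tt_ge hQ (sc_IsInt (frCalc g) (2 / b) (dat_isInt D)) (dat_nonneg D) (dat_def D)
      (by omega) h hR' hkT hk.1 hdiv' hcas' (fun h0 => ht0 (Subtype.ext h0))
    linarith
  · intro _ h0 M' hM hMU mφ mw
    refine H992.s0_H (flwF D hb h _) (m := q) rfl he hqR (ladE_Lam h _ _ _ _)
      (ladE_def h _ _ _ (dat_def D) _) (flwF_LamL D hb h _) t1 t2 ?_ h0 M' hM hMU mφ mw
    intro hw0
    have h1 := H575.two_ge hQ (sc_IsInt (frCalc g) (2 / b) (dat_isInt D)) (dat_nonneg D)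
      (dat_def D) (by omega) h hR' hkT hk.1 hcas' (fun h0 => hw0 (Subtype.ext h0))
    linarith

/-- **LOW for a metric of Cayley type** -/
theorem low_C (hN : NegCurvature g) {b c₀ : ℝ} (hb : 0 < b)
    (hbc : 2 / b * (2 / b) * c₀ = m + 3 * 7) (hmq : m + 1 = 16)
    (hR : RankOne (frCalc g) b c₀) (h : Rk1 (sc (frCalc g) (2 / b)) 7) : LOWStmt D b c₀ := by
  intro lam k hk hcas hdiv htr hne
  have hmR : (m : ℝ) + 1 = 16 := by exact_mod_cast hmq
  refine low_frame D hb (by norm_num) hbc h hR hk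
    (fun hH => H546.trk_eq_zero D hN hk htr hH) rfl (fun hφ hw ht => ?_) hcas hdiv hne
  have hR' : RankOne (sc (frCalc g) (2 / b)) 2 (m + 3 * 7) := by
    have h1 := sc_RankOne hR
    rwa [hbc] at h1
  have hdiv' : ∀ j, Kat.divf (sc (frCalc g) (2 / b))
      (k22 (sc (frCalc g) (2 / b)) 2 (m + 3 * 7) k) j = 0 := by
    intro j
    rw [← hbc, sc_k22 (frCalc g) hb, sc_divf, hdiv, smul_zero]
  have hkT := sc_t2_of_GT2 hk (2 / b)
  have t1 : Typ (ladF D h (2 / b * (2 / b) * lam)) 0 0 ⟨phiB h hkT, hφ⟩ :=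
    (sub_typ (hN := stable_WE h (sc_IsInt (frCalc g) (2 / b) (dat_isInt D)) (dat_nonneg D)
      (H662.scStab (rotStab g) (2 / b)) _)).2 (typ_phi h _ _ hkT)
  have t2 : Typ (ladF D h (2 / b * (2 / b) * lam)) 2 0 ⟨twoB h hkT, hw⟩ :=
    (sub_typ (hN := stable_WE h (sc_IsInt (frCalc g) (2 / b) (dat_isInt D)) (dat_nonneg D)
      (H662.scStab (rotStab g) (2 / b)) _)).2 (typ_two h _ _ hR' hkT hk.1)
  have t3 : TT (ladF D h (2 / b * (2 / b) * lam)) ⟨ttB h hkT, ht⟩ :=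
    (sub_TT (hN := stable_WE h (sc_IsInt (frCalc g) (2 / b) (dat_isInt D)) (dat_nonneg D)
      (H662.scStab (rotStab g) (2 / b)) _)).2 (tt_ttB h _ _ hR' hkT hk.1 hdiv')
  have he : (ladF D h (2 / b * (2 / b) * lam)).e = 8 := by
    have h1 : (ladF D h (2 / b * (2 / b) * lam)).e = (m : ℝ) - 7 := rfl
    rw [h1]
    linarith
  refine certAt_C (flwF D hb h _) rfl he (ladE_Lam h _ _ _ _)
    (ladE_def h _ _ _ (dat_def D) _) (fd_TTs h _ _ _ (fds_sc D (two_div_ne hb)) _) t3 ?_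
  intro _ h0 M' hM hMU mφ mw
  exact H992.s0_C (flwF D hb h _) rfl he (ladE_Lam h _ _ _ _)
    (ladE_def h _ _ _ (dat_def D) _) (flwF_LamL D hb h _) t1 t2 h0 M' hM hMU mφ mw

/-- **LOW for a metric of quaternionic or Cayley type** (the data of H662's `exists_rk1_qc`) -/
theorem low_qc (hL : LocSymmetric g) (hN : NegCurvature g)
    {b c₀ : ℝ} {d : ℕ} (hb : 0 < b) (hbc : 2 / b * (2 / b) * c₀ = m + 3 * d)
    (hd : (d = 3 ∧ ∃ q : ℕ, 2 ≤ q ∧ m + 1 = 4 * q) ∨ (d = 7 ∧ m + 1 = 16))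
    (hbd : ∀ f : Fr g, (act hL hN f).Nrm b ∧ ∀ v : En (m + 1), ‖v‖ = 1 →
        finrank ℝ (End.eigenspace ((act hL hN f).K v) (b ^ 2)) = d)
    (hR : RankOne (frCalc g) b c₀) (h : Rk1 (sc (frCalc g) (2 / b)) d) : LOWStmt D b c₀ := by
  rcases hd with ⟨rfl, q, hq, hmq⟩ | ⟨rfl, hm⟩
  · have e : ((3 : ℕ) : ℝ) = 3 := by norm_num
    rw [e] at hbc h
    exact low_H D hL hN hb hbc hq hmq hbd hR h
  · have e : ((7 : ℕ) : ℝ) = 7 := by norm_num
    rw [e] at hbc h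
    exact low_C D hN hb hbc hm hR h

end Low

end Vale.Agent.P207.Low
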